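import Vale.Agent.P352X.EB.Defs
import Vale.Agent.P352Z.P352X.Spec

open Vale.Agent.P352G

/-!
# P352X, block EB: vocabulary (see notes/P352/eb.md)
-/

set_option linter.all false

open MeasureTheory Filter Topology
open scoped SchwartzMap ComplexConjugate ContDiff

namespace Vale.Agent.P352X.EB

open Vale.Agent.P352 Vale.Agent.P352.GF Vale.Agent.P352.BW Vale.Agent.P352.H246
open Vale.Agent.P352.H496 Vale.Agent.P352.H755 Vale.Agent.P352.H15
open Vale.Agent.P352.SubConf (IsAdj)
open Vale.Agent.P132 (ModData jconj)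
open UniformSpace (Completion)
open Complex (I)

noncomputable section

/-! ## tame vectors -/

section tame

variable {H : Type*} [NormedAddCommGroup H] [InnerProductSpace ℂ H] [CompleteSpace H]

end tame

/-! ## test functions -/

/-! ## similitudes -/

namespace Sg

end Sg

variable {D : Type*} [NormedAddCommGroup D] [InnerProductSpace ℂ D] [GrD D]

def Sg.UZ (g : Sg) (c : CtxZ D) : Completion D →L[ℂ] Completion D := Ug c.Q g.s g.L g.a

/-! ## the local algebra of smooth tame vectors -/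

section loc

variable (c : CtxZ D)

abbrev M0Z : VonNeumannAlgebra (Completion D) := c.N W0

/-- smooth tame in all wedges that contain `K` -/
def LocZ (K : Set V) (ξ ξ' : Completion D) : Prop :=
  ∀ g : Sg, g.Adm K → Stm (M0Z c) c.Om (g.UZ c ξ) (g.UZ c ξ')

/-- the product relation in all wedges that contain `K` -/
def RlZ (K : Set V) (ξ' η ζ : Completion D) : Prop :=
  ∀ g : Sg, g.Adm K → Prd (M0Z c) c.Om (g.UZ c ξ') (g.UZ c η) (g.UZ c ζ)

open Classical in
/-- the product of the pair `(ξ, ξ')` and `η` -/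
def mlZ (ξ' η : Completion D) : Completion D :=
  if h : ∃ ζ, ∃ K, Bornology.IsBounded K ∧ RlZ c K ξ' η ζ then h.choose else 0

/-- local pairs -/
def LpZ (ξ ξ' : Completion D) : Prop := ∃ K, Bornology.IsBounded K ∧ LocZ c K ξ ξ'

end loc

/-! ## letters and words -/

/-- the letters: fields applied to the vacuum -/
structure LtZ (c : CtxZ D) (Λ : Type*) where
  dag : Λ → Λ
  φ : Λ → Fn → Completion D
  dag2 : ∀ a, dag (dag a) = a
  lin : ∀ a (f g : Fn) (z : ℂ), IsTest f → IsTest g →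
    φ a (fun x => f x + z * g x) = φ a f + z • φ a g
  cont : ∀ a, Continuous fun g : Sch => φ a (ev g)
  st : ∀ a f, In W0 f → Stm (M0Z c) c.Om (φ a f) (φ (dag a) (bar f))
  cov : ∀ a (g : Sg), ∃ (n : ℕ) (κ : Fin n → ℂ) (b : Fin n → Λ), ∀ f, IsTest f →
    φ a f = ∑ i, κ i • g.UZ c (φ (b i) (g.pull f)) ∧
    φ (dag a) f = ∑ i, conj (κ i) • g.UZ c (φ (dag (b i)) (g.pull f))
  tra : ∀ a y f, IsTest f → φ a f = Ut c.Q y (φ a fun x => f (sim 1 GF.one y x))
  dil : ∀ a, ∃ e : ℕ, ∀ s : ℝ, 1 ≤ s → ∃ κ : ℂ, ‖κ‖ ≤ s ^ e ∧ ∀ f, IsTest f →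
    φ a f = κ • Ug c.Q s GF.one 0 (φ a fun x => f (sim s GF.one 0 x))

variable {c : CtxZ D} {Λ : Type*}

namespace LtZ

variable (x : LtZ c Λ)

end LtZ

end

end Vale.Agent.P352X.EB
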