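import Vale.Agent.P352X.EB.Spec
import Vale.Agent.P352Z.P352X.EB.Defs

open Vale.Agent.P352G

/-!
# P352X, block EB: the rows (see notes/P352/eb.md)
-/

set_option linter.all false

open MeasureTheory Filter Topology
open scoped SchwartzMap ComplexConjugate ContDiff

namespace Vale.Agent.P352X.EB

open Vale.Agent.P352 Vale.Agent.P352.GF Vale.Agent.P352.BW Vale.Agent.P352.H246
open Vale.Agent.P352.H496 Vale.Agent.P352.H755 Vale.Agent.P352.H15
open Vale.Agent.P352.SubConf (IsAdj)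
open Vale.Agent.P132 (ModData jconj)
open UniformSpace (Completion)
open Complex (I)
open Bornology (IsBounded)

noncomputable section

/-! ## level A: Hilbert space -/

section hilbert

variable (H : Type*) [NormedAddCommGroup H] [InnerProductSpace ℂ H] [CompleteSpace H]

end hilbert

/-! ## level B: test functions and geometry -/

/-! ## level C: fields -/

section fields

variable (D : Type*) [NormedAddCommGroup D] [InnerProductSpace ℂ D] [GrD D]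

variable {D} (c : CtxZ D)

/-- row FLOW: the finite action of `exp (i t K)` on the potential -/
def FLOWZ : Prop := ∀ f t, In {z | be z < 0} f → 0 ≤ t → c.SK t (c.l f) = c.l (pb 2 t f)

/-- row SG: the group of similitudes -/
structure SGZ : Prop where
  act_mul : ∀ (g h : Sg) x, (g.mul h).act x = g.act (h.act x)
  inv_act : ∀ (g : Sg) x, g.inv.act (g.act x) = x
  act_inv : ∀ (g : Sg) x, g.act (g.inv.act x) = x
  U_mul : ∀ g h : Sg, (g.mul h).UZ c = g.UZ c * h.UZ c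
  U_inv : ∀ g : Sg, g.inv.UZ c = star (g.UZ c)
  uni : ∀ g : Sg, g.UZ c ∈ unitary (Completion D →L[ℂ] Completion D)
  vac : ∀ g : Sg, g.UZ c c.Om = c.Om ∧ star (g.UZ c) c.Om = c.Om
  test : ∀ (g : Sg) f, IsTest f → IsTest (g.pull f)
  inn : ∀ (g : Sg) O f, In O f → In (g.act ⁻¹' O) (g.pull f)
  clm : ∀ g : Sg, ∃ P : Sch →L[ℂ] Sch, ∀ f, ev (P f) = g.pull (ev f)
  bdd : ∀ (g : Sg) K, IsBounded K → IsBounded (g.act '' K)
  ex : ∀ K, IsBounded K → ∃ g : Sg, g.Adm K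
  opn : ∀ g : Sg, IsOpen g.Op
  com : ∀ (g : Sg), ∀ X ∈ c.N g.Op, g.UZ c * X * star (g.UZ c) ∈ (M0Z c).commutant
  loc : ∀ (g : Sg) K, g.Adm K → ∀ X ∈ c.N K, g.UZ c * X * star (g.UZ c) ∈ M0Z c
  back : ∀ (g : Sg), ∀ X ∈ M0Z c, star (g.UZ c) * X * g.UZ c ∈ c.N (g.act ⁻¹' W0)
  dense : Dense {z | ∃ Y ∈ (M0Z c).commutant, Y c.Om = z}

/-- row MU1: the product of local pairs -/
structure MU1Z : Prop where
  mono : ∀ K K' ξ ξ', K ⊆ K' → LocZ c K ξ ξ' → LocZ c K' ξ ξ'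
  U : ∀ K ξ ξ' (g : Sg), LocZ c K ξ ξ' → LocZ c (g.act '' K) (g.UZ c ξ) (g.UZ c ξ')
  vac : LpZ c c.Om c.Om
  zero : LpZ c 0 0
  add : ∀ ξ ξ' η η', LpZ c ξ ξ' → LpZ c η η' → LpZ c (ξ + η) (ξ' + η')
  smul : ∀ (z : ℂ) ξ ξ', LpZ c ξ ξ' → LpZ c (z • ξ) (conj z • ξ')
  symm : ∀ K ξ ξ', LocZ c K ξ ξ' → LocZ c K ξ' ξ
  uniq : ∀ ξ ξ' ξ'', LpZ c ξ ξ' → LpZ c ξ ξ'' → ξ' = ξ''
  eq : ∀ K ξ' η ζ, IsBounded K → RlZ c K ξ' η ζ → mlZ c ξ' η = ζ
  prod : ∀ K ξ ξ' η η', IsBounded K → LocZ c K ξ ξ' → LocZ c K η η' →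
    LocZ c K (mlZ c ξ' η) (mlZ c η ξ') ∧ RlZ c K ξ' η (mlZ c ξ' η) ∧
      ∀ g : Sg, g.Adm K → Core (M0Z c) c.Om (g.UZ c η) (g.UZ c ξ) (g.UZ c (mlZ c ξ' η))

/-- the tools for the rows of level C -/
structure E0Z : Prop extends T2Z c where
  g1 : G1Z c
  tmb : TMB (Completion D)
  stb : STB (Completion D)
  prod : PROD (Completion D)
  smo : SMO (Completion D)
  mom : MOM D
  dec : DEC
  ana : ANA
  dy : DY
  pou : POU (Completion D)
  ch0 : CH0
  chn : CHN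
  geo : GEO
  eg : EG.E0 c.cg

variable {c} {Λ : Type*} (x : LtZ c Λ)

variable (c)

end fields

end

end Vale.Agent.P352X.EB
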