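import Vale.Agent.P352X.EB.Wire0
import Vale.Agent.P352X.EB.TD
import Vale.Agent.P352X.EB.ANA
import Vale.Agent.P352X.EB.CH0
import Vale.Agent.P352X.EB.CHN
import Vale.Agent.P352X.EB.CV
import Vale.Agent.P352X.EB.DEC
import Vale.Agent.P352X.EB.DY
import Vale.Agent.P352X.EB.EXT
import Vale.Agent.P352X.EB.FS
import Vale.Agent.P352X.EB.GEO
import Vale.Agent.P352X.EB.JB
import Vale.Agent.P352X.EB.JL
import Vale.Agent.P352X.EB.KEY
import Vale.Agent.P352X.EB.MB
import Vale.Agent.P352X.EB.MOM
import Vale.Agent.P352X.EB.MU1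
import Vale.Agent.P352X.EB.OPS
import Vale.Agent.P352X.EB.PROD
import Vale.Agent.P352X.EB.REC
import Vale.Agent.P352X.EB.SCAL
import Vale.Agent.P352X.EB.SMO
import Vale.Agent.P352X.EB.STF
import Vale.Agent.P352X.EB.TMB
import Vale.Agent.P352X.EB.TML
import Vale.Agent.P352X.EB.TMP
import Vale.Agent.P352Z.P352X.EB.FLOW
import Vale.Agent.P352X.EG.W
import Vale.Agent.P352Z.P352X.TPD.Fin

open Vale.Agent.P352G

/-!
# P352X, block EB: the wiring
-/

set_option linter.all false

namespace Vale.Agent.P352X.EB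

open Vale.Agent.P352 Vale.Agent.P352.GF Vale.Agent.P352.BW Vale.Agent.P352.H246
open Vale.Agent.P352.H496 Vale.Agent.P352.H755 Vale.Agent.P352.H15
open UniformSpace (Completion)

variable {D : Type*} [NormedAddCommGroup D] [InnerProductSpace ℂ D] [GrD D]

theorem e0_thmZ (c : CtxZ D) (g : G1Z c) : E0Z c :=
  { t2_thmZ c with
    g1 := g, tmb := tmb_row _, stb := stb_row _, prod := prod_row _, smo := smo_row _ (key_row _)
    mom := mom_row D, dec := dec_row, ana := ana_row
    dy := dy_row ana_row, pou := pou_row _, ch0 := ch0_row, chn := chn_row ch0_row, geo := geo_row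
    eg := EG.e0_thm c.cg }

end Vale.Agent.P352X.EB
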